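import Vale.Agent.P224.S11.Piv.Dn

/-!
Column function z 1 8 2 2 (m = 11): kernel-checked polynomial approximant on `(0, 1)`.
-/

namespace Vale.Agent.P224.S11.K38

open Vale.Agent.P224.SP Vale.Agent.P224.S11

/-- coefficient lists over `DnL` -/
def r : Q4 := ⟨
  [0, 0, 18432171418454640000, -4456521135990000000, -63264774046514040000,
  14648179835714040000, 79516538090118360000, -17304530640150600000, -43207406765107200000,
  8512213695678000000, 8765766607197600000, -1421036822620800000, -244630962770040000,
  21782756179800000, 2343063686040000, -87688810440000, -7405065360000],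
  [0, 0, -23530431598027200000, -23530431598027200000, 59642837777809440000,
  59642837777809440000, -49415955485034600000, -49415955485034600000, 14034525915564000000,
  14034525915564000000, -740413906570800000, -740413906570800000, 9472705704000000,
  9472705704000000, -35409444840000, -35409444840000],
  [0, 0, 11765215799013600000, 5347825363188000000, -31522999686282720000,
  -12737547683229600000, 28522270990382400000, 9503722324958400000, -9587002441262400000,
  -2147440044657600000, 834359090796000000, 33576161018400000, -11890311602400000,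
  -136121277600000, 46558955520000],
  []⟩

/-- reduced coefficient lists -/
def N : Q4 := ⟨
  [0, 0, 27249829200, 20661379200, -45168017400, -30209731200, 19976497200, 9708634800,
  -2058309000, -160282800],
  [0, 0, -34787016000, -69574032000, -16761016800, 36051998400, 17259561000, -1532876400,
  -766438200],
  [0, 0, 17393508000, 25299648000, -3622449600, -14416617600, -1938578400, 1007769600],
  []⟩

/-- approximant (times `DD`) -/
def B : List ℤ :=
  [2, -676, -146905959323, 80129265847, 296861951179, -145559902657, -143935498748,
  41976578804, -62702825820, 175505851882, -152014759489, 78675017152, -27332425581,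
  5903679971, -600972543]

/-- error (times `DD`) -/
def E : ℤ := 3

/-- test list -/
def n0 : List ℤ :=
  [-38974342, 13095378912, 2303759516966731715683, 1748751150239625158825,
  -3819901907556342748250, -2561117237554084550308, 1689450622827627637593,
  827397369701246456079, -171406869802157521840, -15328131822249985266, -2655986792626840805,
  971409165577868424, 428662238489822986, -582936231509666331, 314250863605163122,
  -91623511700660335, 11711254711745853]

/-- test list -/
def n1 : List ℤ :=
  [0, 0, -2937314981349163008000, -5874629962698326016000, -1415251763740960358400,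
  3044126435216405299200, 1457347393545043968000, -129431648126317363200,
  -64715824063158681600]

/-- test list -/
def n2 : List ℤ :=
  [0, 0, 1468657490674581504000, 2136229077344845824000, -305869163347102924800,
  -1217297478371298508800, -163687951183852339200, 85093149232123084800]

/-- test list -/
def n3 : List ℤ :=
  []

/-- weight list -/
def wt : List ℤ :=
  [58461513, 58461513, -58461513, -58461513]

/-- factor -/
def fac : List ℤ := [676414200, -676414200, -687594600, 687594600, 11226600, -11226600, -46200, 46200]

lemma e0 : eqL n0 (addL (smulL DD N.n0) (smulL (-1) (mulL B (dnL 19487171 0 0 2 0 0)))) = true := by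
  decide +kernel

lemma e1 : eqL n1 (smulL DD N.n1) = true := by
  decide +kernel

lemma e2 : eqL n2 (smulL DD N.n2) = true := by
  decide +kernel

lemma e3 : eqL n3 (smulL DD N.n3) = true := by
  decide +kernel

lemma e4 : eqL wt (smulL E (mulL (powZ 1) (dnL 19487171 0 0 2 0 0))) = true := by
  decide +kernel

lemma hv : vanT n1 n2 n3 [] [] 0 0 = true := by
  decide +kernel

lemma h0 : chkL05 n0 n1 n2 n3 wt 0 = true := by
  decide +kernel

lemma h6 : chkLp5 n0 n1 n2 n3 wt 0 6 1 2 128 = true := by
  decide +kernel

lemma h5 : chkLp5 n0 n1 n2 n3 wt 0 5 1 2 64 = true := by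
  decide +kernel

lemma h4 : chkLp5 n0 n1 n2 n3 wt 0 4 1 2 32 = true := by
  decide +kernel

lemma h3 : chkLp5 n0 n1 n2 n3 wt 0 3 1 2 16 = true := by
  decide +kernel

lemma h2 : chkLp5 n0 n1 n2 n3 wt 0 2 1 2 8 = true := by
  decide +kernel

lemma r1 : chkN 2 1 4 4 (addL (rW5 n1 n2 n3 wt 0) (rM n0 n1 n2 n3 [] [] 0)) = true := by
  decide +kernel

lemma r2 : chkN 2 1 4 4 (addL (rW5 n1 n2 n3 wt 0)
      (smulL (-1) (rM n0 n1 n2 n3 [] [] 0))) = true := by
  decide +kernel

lemma d0 : eqL r.n0 (mulL fac N.n0) = true := by
  decide +kernel

lemma d1 : eqL r.n1 (mulL fac N.n1) = true := by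
  decide +kernel

lemma d2 : eqL r.n2 (mulL fac N.n2) = true := by
  decide +kernel

lemma d3 : eqL r.n3 (mulL fac N.n3) = true := by
  decide +kernel

lemma dd : eqL DnL (mulL fac (dnL 19487171 0 0 2 0 0)) = true := by
  decide +kernel

theorem eq {T : ℝ} (h0 : 0 < T) (h1 : T < 1) :
    G4 r T / ev DnL T = qf N 19487171 0 0 2 0 0 T :=
  G4_div_eq (by norm_num) d0 d1 d2 d3 dd h0 h1

theorem bd {T : ℝ} (hT0 : 0 < T) (hT1 : T < 1) :
    |(DD : ℝ) * (G4 r T / ev DnL T) - ev B T| ≤ E * (1 - T) ^ 1 := by
  rw [eq hT0 hT1]
  exact qf_bd (by norm_num) e0 e1 e2 e3 e4 (q := 2) (by norm_num) (by norm_num) hv h0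
    h6 h5 h4 h3 h2 r1 r2 hT0 hT1

end Vale.Agent.P224.S11.K38
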