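import Vale.Agent.P224.S11.Piv.Small3

/-!
Polynomial approximants of the functions `G4 N / den` on `(0, 1)` from kernel checks.
-/

namespace Vale.Agent.P224.S11

open Set Real Vale.Agent.P224.SP

/-- `c T^a (1-T)^b (1+T)^i (11-T)^j (11+T)^k` -/
noncomputable def dnR (c : ℤ) (a b i j k : ℕ) (T : ℝ) : ℝ :=
  c * (T ^ a * ((1 - T) ^ b * ((1 + T) ^ i * ((11 - T) ^ j * (11 + T) ^ k))))

/-- power of a list -/
def pwL (l : List ℤ) : ℕ → List ℤ
  | 0 => [1]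
  | (n + 1) => mulL l (pwL l n)

lemma ev_pwL (l : List ℤ) (n : ℕ) (T : ℝ) : ev (pwL l n) T = ev l T ^ n := by
  induction n with
  | zero => simp [pwL]
  | succ n ih => rw [pwL, ev_mulL, ih, pow_succ']

/-- the list of `dnR` -/
def dnL (c : ℤ) (a b i j k : ℕ) : List ℤ :=
  smulL c (shl a (mulL (pwL [1, -1] b) (mulL (pwL [1, 1] i)
    (mulL (pwL [11, -1] j) (pwL [11, 1] k)))))

lemma ev_dnL (c : ℤ) (a b i j k : ℕ) (T : ℝ) : ev (dnL c a b i j k) T = dnR c a b i j k T := by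
  unfold dnL dnR
  simp only [ev_smulL, ev_shl, ev_mulL, ev_pwL, ev_cons, ev_nil]
  push_cast
  ring_nf

lemma dnR_pos {c : ℤ} (hc : 0 < c) (a b i j k : ℕ) {T : ℝ} (hT0 : 0 < T) (hT1 : T < 1) :
    0 < dnR c a b i j k T := by
  have hc' : (0 : ℝ) < c := by exact_mod_cast hc
  unfold dnR
  have := pow_pos hT0 a
  have : 0 < (1 - T) ^ b := pow_pos (by linarith) b
  have : (0 : ℝ) < (1 + T) ^ i := pow_pos (by linarith) i
  have h5m' : (0 : ℝ) < (11 - T) ^ j := pow_pos (by linarith) j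
  have h5p' : (0 : ℝ) < (11 + T) ^ k := pow_pos (by linarith) k
  positivity

/-- `G4 N / dnR` -/
noncomputable def qf (N : Q4) (c : ℤ) (a b i j k : ℕ) (T : ℝ) : ℝ :=
  G4 N T / dnR c a b i j k T

theorem qf_bd {N : Q4} {c : ℤ} {a b i j k h q : ℕ} {D E : ℤ} {B n0 n1 n2 n3 wt : List ℤ}
    (hc : 0 < c)
    (e0 : eqL n0 (addL (smulL D N.n0) (smulL (-1) (mulL B (dnL c a b i j k)))) = true)
    (e1 : eqL n1 (smulL D N.n1) = true) (e2 : eqL n2 (smulL D N.n2) = true)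
    (e3 : eqL n3 (smulL D N.n3) = true)
    (e4 : eqL wt (smulL E (mulL (powZ h) (dnL c 0 b i j k))) = true)
    (hq : q ≠ 0) (ha : a ≤ 23)
    (hv : vanT n1 n2 n3 [] [] 0 a = true)
    (h0 : chkL05 n0 n1 n2 n3 wt a = true)
    (h6 : chkLp5 n0 n1 n2 n3 wt a 6 1 2 128 = true)
    (h5 : chkLp5 n0 n1 n2 n3 wt a 5 1 2 64 = true)
    (h4 : chkLp5 n0 n1 n2 n3 wt a 4 1 2 32 = true)
    (h3 : chkLp5 n0 n1 n2 n3 wt a 3 1 2 16 = true)
    (h2 : chkLp5 n0 n1 n2 n3 wt a 2 1 2 8 = true)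
    (r1 : chkN q 1 4 4 (addL (rW5 n1 n2 n3 wt a) (rM n0 n1 n2 n3 [] [] 0)) = true)
    (r2 : chkN q 1 4 4 (addL (rW5 n1 n2 n3 wt a)
      (smulL (-1) (rM n0 n1 n2 n3 [] [] 0))) = true) {T : ℝ} (hT0 : 0 < T) (hT1 : T < 1) :
    |D * qf N c a b i j k T - ev B T| ≤ E * (1 - T) ^ h := by
  have hs := small5 hq ha hv h0 h6 h5 h4 h3 h2 r1 r2 hT0 hT1
  have hd : 0 < dnR c a b i j k T := dnR_pos hc a b i j k hT0 hT1
  have hFF : FF n0 n1 n2 n3 [] [] 0 T =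
      D * G4 N T - ev B T * dnR c a b i j k T := by
    unfold FF G4
    rw [ev_of_eqL e0, ev_of_eqL e1, ev_of_eqL e2, ev_of_eqL e3, ← ev_dnL]
    simp only [ev_addL, ev_smulL, ev_mulL, ev_nil]
    push_cast
    ring
  rw [hFF] at hs
  have e5 : D * qf N c a b i j k T - ev B T =
      (D * G4 N T - ev B T * dnR c a b i j k T) / dnR c a b i j k T := by
    unfold qf
    field_simp
  rw [e5, abs_div, abs_of_pos hd, div_le_iff₀ hd]
  refine hs.trans (le_of_eq ?_)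
  rw [ev_of_eqL e4, ev_smulL, ev_mulL, ev_powZ, ev_dnL]
  unfold dnR
  ring

end Vale.Agent.P224.S11
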